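/-
Supporting statement S0268 (row 365, parent row 133).
Deterministic part: the worst-case distance of the Glauber dynamics is non-increasing in time and
tends to zero (Doeblin), hence "some start is far at time T" gives "mixing time at least T".
-/
import Claimed.Agent.R133.Dyn

set_option autoImplicit false

namespace Claimed.Agent.S0268

open scoped BigOperators Matrix
open Claimed.Agent.R133

section abs

variable {X : Type*} [Fintype X] [DecidableEq X]

omit [DecidableEq X] in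
/-- averaging with a stochastic matrix does not increase the worst-case `ℓ¹` distance -/
theorem abs_mono (π : X → ℝ) (S Q : Matrix X X ℝ) (hS0 : ∀ x y, 0 ≤ S x y)
    (hS1 : ∀ x, ∑ y, S x y = 1) (c : ℝ) (hQ : ∀ z, ∑ y, |Q z y - π y| ≤ c) (x : X) :
    ∑ y, |(S * Q) x y - π y| ≤ c := by
  have h1 : ∀ y, (S * Q) x y - π y = ∑ z, S x z * (Q z y - π y) := by
    intro y
    rw [Matrix.mul_apply]
    simp only [mul_sub]
    rw [Finset.sum_sub_distrib, ← Finset.sum_mul, hS1, one_mul]
  calc ∑ y, |(S * Q) x y - π y| = ∑ y, |∑ z, S x z * (Q z y - π y)| := by simp only [h1]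
    _ ≤ ∑ y, ∑ z, S x z * |Q z y - π y| := by
        refine Finset.sum_le_sum fun y _ => ?_
        refine (Finset.abs_sum_le_sum_abs _ _).trans (le_of_eq ?_)
        refine Finset.sum_congr rfl fun z _ => ?_
        rw [abs_mul, abs_of_nonneg (hS0 x z)]
    _ = ∑ z, S x z * ∑ y, |Q z y - π y| := by
        rw [Finset.sum_comm]
        simp only [Finset.mul_sum]
    _ ≤ ∑ z, S x z * c :=
        Finset.sum_le_sum fun z _ => mul_le_mul_of_nonneg_left (hQ z) (hS0 x z)
    _ = c := by rw [← Finset.sum_mul, hS1, one_mul]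

omit [DecidableEq X] in
/-- Doeblin contraction -/
theorem abs_contract (Q : Matrix X X ℝ) (c : ℝ) (hc : ∀ x y, c ≤ Q x y)
    (hQ1 : ∀ x, ∑ y, Q x y = 1) (D : X → ℝ) (hD : ∑ z, D z = 0) :
    ∑ y, |∑ z, D z * Q z y| ≤ (1 - c * Fintype.card X) * ∑ z, |D z| := by
  have h1 : ∀ y, ∑ z, D z * Q z y = ∑ z, D z * (Q z y - c) := by
    intro y
    simp only [mul_sub]
    rw [Finset.sum_sub_distrib, ← Finset.sum_mul, hD, zero_mul, sub_zero]
  calc ∑ y, |∑ z, D z * Q z y| = ∑ y, |∑ z, D z * (Q z y - c)| := by simp only [h1]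
    _ ≤ ∑ y, ∑ z, |D z| * (Q z y - c) := by
        refine Finset.sum_le_sum fun y _ => ?_
        refine (Finset.abs_sum_le_sum_abs _ _).trans (le_of_eq ?_)
        refine Finset.sum_congr rfl fun z _ => ?_
        rw [abs_mul, abs_of_nonneg (sub_nonneg.2 (hc z y))]
    _ = ∑ z, |D z| * ∑ y, (Q z y - c) := by
        rw [Finset.sum_comm]
        simp only [Finset.mul_sum]
    _ = ∑ z, |D z| * (1 - c * Fintype.card X) := by
        refine Finset.sum_congr rfl fun z _ => ?_
        rw [Finset.sum_sub_distrib, hQ1, Finset.sum_const, Finset.card_univ, nsmul_eq_mul,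
          mul_comm c]
    _ = (1 - c * Fintype.card X) * ∑ z, |D z| := by rw [← Finset.sum_mul, mul_comm]

/-- geometric decay of the `ℓ¹` distance to the stationary law -/
theorem abs_decay (π : X → ℝ) (hπ1 : ∑ x, π x = 1) (Q : Matrix X X ℝ) (c : ℝ)
    (hc : ∀ x y, c ≤ Q x y) (hQ1 : ∀ x, ∑ y, Q x y = 1)
    (hst : ∀ y, ∑ z, π z * Q z y = π y) (x : X) (k : ℕ) :
    ∑ y, |(Q ^ k) x y - π y| ≤
      (1 - c * Fintype.card X) ^ k * ∑ y, |(1 : Matrix X X ℝ) x y - π y| := by
  have hρ : 0 ≤ 1 - c * Fintype.card X := by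
    have h : ∑ _y : X, c ≤ ∑ y, Q x y := Finset.sum_le_sum fun y _ => hc x y
    rw [hQ1, Finset.sum_const, Finset.card_univ, nsmul_eq_mul] at h
    linarith
  induction k with
  | zero => simp
  | succ k ih =>
    have hD : ∑ z, ((Q ^ k) x z - π z) = 0 := by
      rw [Finset.sum_sub_distrib, dyn_pow_row_sum Q hQ1 k x, hπ1, sub_self]
    have h2 : ∀ y, (Q ^ (k + 1)) x y - π y = ∑ z, ((Q ^ k) x z - π z) * Q z y := by
      intro y
      rw [pow_succ, Matrix.mul_apply]
      conv_lhs => rw [← hst y]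
      rw [← Finset.sum_sub_distrib]
      exact Finset.sum_congr rfl fun z _ => by ring
    calc ∑ y, |(Q ^ (k + 1)) x y - π y| = ∑ y, |∑ z, ((Q ^ k) x z - π z) * Q z y| := by
          simp only [h2]
      _ ≤ (1 - c * Fintype.card X) * ∑ z, |(Q ^ k) x z - π z| := abs_contract Q c hc hQ1 _ hD
      _ ≤ (1 - c * Fintype.card X) *
            ((1 - c * Fintype.card X) ^ k * ∑ y, |(1 : Matrix X X ℝ) x y - π y|) :=
          mul_le_mul_of_nonneg_left ih hρ
      _ = _ := by ring

/-- a stochastic matrix with positive entries converges to its stationary law -/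
theorem abs_exists [Nonempty X] (π : X → ℝ) (hπ0 : ∀ x, 0 ≤ π x) (hπ1 : ∑ x, π x = 1)
    (Q : Matrix X X ℝ) (hpos : ∀ x y, 0 < Q x y) (hQ1 : ∀ x, ∑ y, Q x y = 1)
    (hst : ∀ y, ∑ z, π z * Q z y = π y) (ε : ℝ) (hε : 0 < ε) :
    ∃ k : ℕ, ∀ x, ∑ y, |(Q ^ k) x y - π y| ≤ ε := by
  obtain ⟨p, hp⟩ := Finite.exists_min (fun p : X × X => Q p.1 p.2)
  set c : ℝ := Q p.1 p.2 with hcdef
  have hc0 : 0 < c := hpos _ _
  have hc : ∀ x y, c ≤ Q x y := fun x y => hp (x, y)
  have hcard : (0 : ℝ) < Fintype.card X := by exact_mod_cast Fintype.card_pos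
  have hρ1 : 1 - c * Fintype.card X < 1 := by
    have := mul_pos hc0 hcard
    linarith
  have hρ0 : 0 ≤ 1 - c * Fintype.card X := by
    obtain ⟨x⟩ := ‹Nonempty X›
    have h : ∑ _y : X, c ≤ ∑ y, Q x y := Finset.sum_le_sum fun y _ => hc x y
    rw [hQ1, Finset.sum_const, Finset.card_univ, nsmul_eq_mul] at h
    linarith
  obtain ⟨k, hk⟩ := exists_pow_lt_of_lt_one (half_pos hε) hρ1
  refine ⟨k, fun x => ?_⟩
  have h2 : ∑ y, |(1 : Matrix X X ℝ) x y - π y| ≤ 2 := by
    calc ∑ y, |(1 : Matrix X X ℝ) x y - π y| ≤ ∑ y, ((1 : Matrix X X ℝ) x y + π y) := by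
          refine Finset.sum_le_sum fun y _ => ?_
          have h1 : 0 ≤ (1 : Matrix X X ℝ) x y := by
            rw [Matrix.one_apply]; split_ifs <;> norm_num
          rw [abs_le]
          constructor <;> linarith [hπ0 y]
      _ = 2 := by
          rw [Finset.sum_add_distrib, hπ1]
          simp [Matrix.one_apply]
          norm_num
  calc ∑ y, |(Q ^ k) x y - π y|
      ≤ (1 - c * Fintype.card X) ^ k * ∑ y, |(1 : Matrix X X ℝ) x y - π y| :=
        abs_decay π hπ1 Q c hc hQ1 hst x k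
    _ ≤ (1 - c * Fintype.card X) ^ k * 2 :=
        mul_le_mul_of_nonneg_left h2 (pow_nonneg hρ0 k)
    _ ≤ ε / 2 * 2 := mul_le_mul_of_nonneg_right hk.le (by norm_num)
    _ = ε := by ring

omit [DecidableEq X] in
/-- reversibility and row sums one give stationarity -/
theorem abs_stationary (π : X → ℝ) (Q : Matrix X X ℝ) (hQ : Rev π Q)
    (hQ1 : ∀ x, ∑ y, Q x y = 1) (y : X) : ∑ z, π z * Q z y = π y := by
  calc ∑ z, π z * Q z y = ∑ z, π y * Q y z := Finset.sum_congr rfl fun z _ => hQ z y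
    _ = π y := by rw [← Finset.mul_sum, hQ1, mul_one]

/-- strict positivity of the entries of `exp (A - c)` -/
theorem abs_exp_sub_pos (A : Matrix X X ℝ) (hA : ∀ x y, 0 ≤ A x y) (c : ℝ) (m : ℕ) (x y : X)
    (hm : 0 < (A ^ m) x y) :
    0 < (NormedSpace.exp (A - c • (1 : Matrix X X ℝ))) x y := by
  have hcomm : Commute A (-(c • (1 : Matrix X X ℝ))) := by
    apply Commute.neg_right
    exact (Commute.one_right A).smul_right c
  have hdiag : -(c • (1 : Matrix X X ℝ)) = Matrix.diagonal (fun _ : X => -c) := by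
    ext i j
    by_cases h : i = j <;> simp [h]
  rw [sub_eq_add_neg, Matrix.exp_add_of_commute _ _ hcomm, hdiag, Matrix.exp_diagonal,
    Matrix.mul_diagonal]
  refine mul_pos ?_ ?_
  · have h := le_hasSum (dynAbs_hasSum_exp_entry A x y) m (fun k _ =>
      mul_nonneg (by positivity) (dynAbs_pow_entries_nonneg A hA k x y))
    exact lt_of_lt_of_le (mul_pos (by positivity) hm) h
  · rw [Pi.coe_exp, ← Real.exp_eq_exp_ℝ]
    exact Real.exp_pos _

end abs

end Claimed.Agent.S0268
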