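/-
Supporting statement S0268 (row 365, parent row 133).
The Glauber dynamics of the SK model: lower bounds for the mixing times from one far start.
-/
import Claimed.Agent.Sup.S0268.Erg

set_option autoImplicit false

namespace Claimed.Agent.S0268

open scoped BigOperators Matrix
open Claims.C0228.CriticalSK
open Claimed.Agent.R133

/-- hybrid configurations: the first `j` coordinates of `y`, the others of `x` -/
def hyb {n : ℕ} (x y : Spin n) (j : ℕ) : Spin n := fun i => if i.val < j then y i else x i

theorem hyb_zero {n : ℕ} (x y : Spin n) : hyb x y 0 = x := by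
  funext i
  simp [hyb]

theorem hyb_top {n : ℕ} (x y : Spin n) : hyb x y n = y := by
  funext i
  simp [hyb, i.isLt]

theorem hyb_same {n : ℕ} (x y : Spin n) (j : ℕ) (hj : j < n) :
    sameExcept ⟨j, hj⟩ (hyb x y j) (hyb x y (j + 1)) := by
  intro l hl
  have hne : l.val ≠ j := fun h => hl (Fin.ext h)
  unfold hyb
  by_cases h : l.val < j
  · rw [if_pos h, if_pos (by omega)]
  · rw [if_neg h, if_neg (by omega)]

theorem pow_pos_of_same {n : ℕ} (M : Matrix (Spin n) (Spin n) ℝ) (h0 : ∀ x y, 0 ≤ M x y)
    (hs : ∀ i x y, sameExcept i x y → 0 < M x y) (x y : Spin n) : 0 < (M ^ n) x y := by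
  have key : ∀ j, j ≤ n → 0 < (M ^ j) x (hyb x y j) := by
    intro j
    induction j with
    | zero =>
      intro _
      rw [pow_zero, hyb_zero, Matrix.one_apply_eq]
      norm_num
    | succ j ih =>
      intro hj
      have hj' : j < n := hj
      rw [pow_succ, Matrix.mul_apply]
      refine lt_of_lt_of_le (mul_pos (ih hj'.le) (hs ⟨j, hj'⟩ _ _ (hyb_same x y j hj'))) ?_
      exact Finset.single_le_sum (f := fun z => (M ^ j) x z * M z (hyb x y (j + 1)))
        (fun z _ => mul_nonneg (dyn_pow_nonneg M h0 j x z) (h0 _ _)) (Finset.mem_univ _)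
  have h := key n le_rfl
  rwa [hyb_top] at h

theorem siteKernel_pos {n : ℕ} (W : Disorder n) (i : Fin n) (x y : Spin n)
    (h : sameExcept i x y) : 0 < siteKernel W i x y := by
  rw [siteKernel_eq, if_pos h]
  exact div_pos (gibbs_pos' W y) (skDen_pos W i x)

theorem sumK_nonneg {n : ℕ} (W : Disorder n) (x y : Spin n) :
    0 ≤ (∑ i : Fin n, siteKernel W i) x y := by
  rw [Matrix.sum_apply]
  exact Finset.sum_nonneg fun i _ => siteKernel_nonneg W i x y

theorem sumK_pos {n : ℕ} (W : Disorder n) (i : Fin n) (x y : Spin n) (h : sameExcept i x y) :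
    0 < (∑ i : Fin n, siteKernel W i) x y := by
  rw [Matrix.sum_apply]
  exact Finset.sum_pos' (fun j _ => siteKernel_nonneg W j x y)
    ⟨i, Finset.mem_univ _, siteKernel_pos W i x y h⟩

/-! ### the discrete kernel -/

theorem dk_nonneg {n : ℕ} (W : Disorder n) (x y : Spin n) : 0 ≤ discreteKernel W x y := by
  rw [discreteKernel, Matrix.smul_apply, smul_eq_mul]
  exact mul_nonneg (by positivity) (sumK_nonneg W x y)

theorem dk_row {n : ℕ} (hn : 0 < n) (W : Disorder n) (x : Spin n) :
    ∑ y, discreteKernel W x y = 1 := by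
  have hn' : (0 : ℝ) < n := by exact_mod_cast hn
  simp only [discreteKernel, Matrix.smul_apply, Matrix.sum_apply, smul_eq_mul, ← Finset.mul_sum]
  rw [Finset.sum_comm]
  simp only [siteKernel_row_sum, Finset.sum_const, Finset.card_univ, Fintype.card_fin,
    nsmul_eq_mul, mul_one]
  exact inv_mul_cancel₀ hn'.ne'

theorem dk_rev {n : ℕ} (W : Disorder n) : Rev (gibbs W) (discreteKernel W) :=
  dyn_rev_smul _ (dyn_rev_sum _ _ fun i _ => siteKernel_rev W i) _

theorem dk_pos {n : ℕ} (hn : 0 < n) (W : Disorder n) (x y : Spin n) :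
    0 < (discreteKernel W ^ n) x y := by
  have hn' : (0 : ℝ) < n := by exact_mod_cast hn
  refine pow_pos_of_same _ (dk_nonneg W) (fun i a b h => ?_) x y
  rw [discreteKernel, Matrix.smul_apply, smul_eq_mul]
  exact mul_pos (by positivity) (sumK_pos W i a b h)

theorem discreteDistance_eq {n : ℕ} (W : Disorder n) (k : ℕ) (x : Spin n) :
    discreteDistance W k x = (1 / 2 : ℝ) * ∑ y, |(discreteKernel W ^ k) x y - gibbs W y| := rfl

theorem disc_nonempty {n : ℕ} (hn : 0 < n) (W : Disorder n) :
    {k : ℕ | ∀ x, discreteDistance W k x ≤ 1 / 4}.Nonempty := by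
  obtain ⟨k, hk⟩ := abs_exists (gibbs W) (fun x => (gibbs_pos' W x).le) (sum_gibbs W)
    (discreteKernel W ^ n) (dk_pos hn W) (dyn_pow_row_sum _ (dk_row hn W) n)
    (abs_stationary _ _ (rev_pow _ _ (dk_rev W) n) (dyn_pow_row_sum _ (dk_row hn W) n))
    (1 / 2) (by norm_num)
  refine ⟨n * k, fun x => ?_⟩
  rw [discreteDistance_eq, pow_mul]
  have := hk x
  linarith

/-- one far start at time `k` forces the discrete mixing time to be larger than `k` -/
theorem disc_lower {n : ℕ} (hn : 0 < n) (W : Disorder n) (k : ℕ) (x : Spin n)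
    (hx : 1 / 4 < discreteDistance W k x) : k < discreteMixingTime W := by
  have hmem := Nat.sInf_mem (disc_nonempty hn W)
  by_contra hlt
  have hle : discreteMixingTime W ≤ k := not_lt.1 hlt
  set m := discreteMixingTime W with hm
  have hmem' : ∀ z, discreteDistance W m z ≤ 1 / 4 := hmem
  have hsplit : discreteKernel W ^ k = discreteKernel W ^ (k - m) * discreteKernel W ^ m := by
    rw [← pow_add, Nat.sub_add_cancel hle]
  have h := abs_mono (gibbs W) (discreteKernel W ^ (k - m)) (discreteKernel W ^ m)
    (dyn_pow_nonneg _ (dk_nonneg W) _) (dyn_pow_row_sum _ (dk_row hn W) _) (1 / 2)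
    (fun z => by
      have := hmem' z
      rw [discreteDistance_eq] at this
      linarith) x
  rw [← hsplit] at h
  rw [discreteDistance_eq] at hx
  linarith

/-! ### the continuous kernel -/

theorem ck_eq {n : ℕ} (W : Disorder n) (t : ℝ) :
    continuousKernel W t = NormedSpace.exp (t • (∑ i : Fin n, siteKernel W i)
        - (t * n) • (1 : Matrix (Spin n) (Spin n) ℝ)) := by
  rw [continuousKernel, dyn_generator_eq, smul_sub, smul_smul]

theorem ck_nonneg {n : ℕ} (W : Disorder n) (t : ℝ) (ht : 0 ≤ t) (x y : Spin n) :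
    0 ≤ continuousKernel W t x y := by
  rw [ck_eq]
  refine exp_sub_entries_nonneg _ (fun a b => ?_) _ x y
  rw [Matrix.smul_apply, smul_eq_mul]
  exact mul_nonneg ht (sumK_nonneg W a b)

theorem ck_row {n : ℕ} (W : Disorder n) (t : ℝ) (x : Spin n) :
    ∑ y, continuousKernel W t x y = 1 := by
  refine exp_row_sum _ (fun a => ?_) x
  simp only [Matrix.smul_apply, smul_eq_mul, ← Finset.mul_sum, dyn_generator_row, mul_zero]

theorem ck_rev {n : ℕ} (W : Disorder n) (t : ℝ) : Rev (gibbs W) (continuousKernel W t) :=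
  rev_exp _ (gibbs_pos' W) _ (dyn_rev_smul _ (dyn_generator_rev W) t)

theorem ck_add {n : ℕ} (W : Disorder n) (s t : ℝ) :
    continuousKernel W (s + t) = continuousKernel W s * continuousKernel W t := by
  unfold continuousKernel
  rw [add_smul]
  exact Matrix.exp_add_of_commute _ _
    (((Commute.refl (generator W)).smul_left s).smul_right t)

theorem ck_nat {n : ℕ} (W : Disorder n) (k : ℕ) :
    continuousKernel W (k : ℝ) = continuousKernel W 1 ^ k := by
  induction k with
  | zero =>
    simp [continuousKernel]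
  | succ k ih =>
    rw [Nat.cast_succ, ck_add, ih, pow_succ]

theorem ck_pos {n : ℕ} (W : Disorder n) (x y : Spin n) : 0 < continuousKernel W 1 x y := by
  rw [ck_eq]
  refine abs_exp_sub_pos _ (fun a b => ?_) _ n x y ?_
  · rw [one_smul]
    exact sumK_nonneg W a b
  · rw [one_smul]
    exact pow_pos_of_same _ (sumK_nonneg W) (sumK_pos W) x y

theorem continuousDistance_eq {n : ℕ} (W : Disorder n) (t : ℝ) (x : Spin n) :
    continuousDistance W t x = (1 / 2 : ℝ) * ∑ y, |continuousKernel W t x y - gibbs W y| := rfl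

theorem cont_nonempty {n : ℕ} (W : Disorder n) :
    {t : ℝ | 0 ≤ t ∧ ∀ x, continuousDistance W t x ≤ 1 / 4}.Nonempty := by
  obtain ⟨k, hk⟩ := abs_exists (gibbs W) (fun x => (gibbs_pos' W x).le) (sum_gibbs W)
    (continuousKernel W 1) (ck_pos W) (ck_row W 1)
    (abs_stationary _ _ (ck_rev W 1) (ck_row W 1)) (1 / 2) (by norm_num)
  refine ⟨(k : ℝ), Nat.cast_nonneg k, fun x => ?_⟩
  rw [continuousDistance_eq, ck_nat]
  have := hk x
  linarith

/-- one far start at time `T` forces the continuous mixing time to be at least `T` -/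
theorem cont_lower {n : ℕ} (W : Disorder n) (T : ℝ) (x : Spin n)
    (hx : 1 / 4 < continuousDistance W T x) : T ≤ continuousMixingTime W := by
  refine le_csInf (cont_nonempty W) ?_
  rintro t ⟨_, ht⟩
  by_contra hlt
  have hle : t ≤ T := (not_le.1 hlt).le
  have hsplit : continuousKernel W T = continuousKernel W (T - t) * continuousKernel W t := by
    rw [← ck_add, sub_add_cancel]
  have h := abs_mono (gibbs W) (continuousKernel W (T - t)) (continuousKernel W t)
    (ck_nonneg W _ (sub_nonneg.2 hle)) (ck_row W _) (1 / 2)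
    (fun z => by
      have := ht z
      rw [continuousDistance_eq] at this
      linarith) x
  rw [← hsplit] at h
  rw [continuousDistance_eq] at hx
  linarith

/-! ### good mass -/

theorem exists_far_cont {n : ℕ} (W : Disorder n) (t : ℝ) (h : 0 < continuousGoodMass W t) :
    ∃ x, 1 / 4 < continuousDistance W t x := by
  by_contra hne
  have : continuousGoodMass W t = 0 := by
    unfold continuousGoodMass
    exact Finset.sum_eq_zero fun x _ => if_neg (fun hx => hne ⟨x, hx⟩)
  linarith

theorem exists_far_disc {n : ℕ} (W : Disorder n) (k : ℕ) (h : 0 < discreteGoodMass W k) :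
    ∃ x, 1 / 4 < discreteDistance W k x := by
  by_contra hne
  have : discreteGoodMass W k = 0 := by
    unfold discreteGoodMass
    exact Finset.sum_eq_zero fun x _ => if_neg (fun hx => hne ⟨x, hx⟩)
  linarith

end Claimed.Agent.S0268
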